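import Mathlib

namespace Vale.Agent.Lib.P110

/-- The value at `z` of the polynomial `∑_{k<N} ε_k z^k`.  When every `ε k` is `1` or `-1`
this is the real Littlewood polynomial of length `N` with sign sequence `ε`. -/
noncomputable def littlewood (N : ℕ) (ε : ℕ → ℤ) (z : ℂ) : ℂ :=
  ∑ k ∈ Finset.range N, (ε k : ℂ) * z ^ k

end Vale.Agent.Lib.P110
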