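import Vale.Agent.Lib.P110.Defs

namespace Vale.Agent.Lib.P110

open Finset

/-- The polynomial `∑_{k<N} f_k z^k` with complex coefficients. -/
noncomputable def cpoly (N : ℕ) (f : ℕ → ℂ) (z : ℂ) : ℂ := ∑ k ∈ range N, f k * z ^ k

lemma kron_two (x n : ℕ) (hx : 0 < x) (f g : ℕ → ℂ) (z : ℂ) :
    cpoly (x * n) (fun k => f (k % x) * g (k / x)) z
      = cpoly x f z * cpoly n g (z ^ x) := by
  induction n with
  | zero => simp [cpoly]
  | succ n ih =>
    have h0 : x * (n + 1) = x * n + x := by ring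
    unfold cpoly at *
    rw [h0, Finset.sum_range_add, ih, Finset.sum_range_succ, mul_add]
    congr 1
    rw [Finset.sum_mul]
    apply Finset.sum_congr rfl
    intro i hi
    have hi' : i < x := Finset.mem_range.1 hi
    have h1 : (x * n + i) % x = i := by
      rw [Nat.mul_add_mod]
      exact Nat.mod_eq_of_lt hi'
    have h2 : (x * n + i) / x = n := by
      rw [Nat.mul_add_div hx]
      simp [Nat.div_eq_of_lt hi']
    show f ((x * n + i) % x) * g ((x * n + i) / x) * z ^ (x * n + i) = _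
    rw [h1, h2, pow_add, pow_mul]
    ring

lemma geom_zero (u : ℂ) (x : ℕ) (hu : u ≠ 1) (hux : u ^ x = 1) : ∑ j ∈ range x, u ^ j = 0 := by
  rw [geom_sum_eq hu, hux]
  simp

lemma parseval_roots (x : ℕ) (hx : 0 < x) (f : ℕ → ℂ) (z ω : ℂ) (hz : ‖z‖ = 1)
    (hω : IsPrimitiveRoot ω x) :
    ∑ j ∈ range x, ‖cpoly x f (z * ω ^ j)‖ ^ 2 = x * ∑ k ∈ range x, ‖f k‖ ^ 2 := by
  have hωn : ‖ω‖ = 1 := hω.norm'_eq_one hx.ne'
  have hzc : z * (starRingEnd ℂ) z = 1 := by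
    rw [Complex.mul_conj']
    simp [hz]
  have hωc : ω * (starRingEnd ℂ) ω = 1 := by
    rw [Complex.mul_conj']
    simp [hωn]
  apply Complex.ofReal_injective
  push_cast
  have key : ∀ w : ℂ, ((‖cpoly x f w‖ : ℂ)) ^ 2
      = cpoly x f w * (starRingEnd ℂ) (cpoly x f w) := by
    intro w
    rw [Complex.mul_conj']
  have key2 : ∀ c : ℂ, ((‖c‖ : ℂ)) ^ 2 = c * (starRingEnd ℂ) c := by
    intro w
    rw [Complex.mul_conj']
  simp_rw [key, key2]
  unfold cpoly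
  simp_rw [map_sum, map_mul, map_pow, Finset.sum_mul_sum]
  rw [Finset.sum_comm]
  rw [Finset.mul_sum]
  apply Finset.sum_congr rfl
  intro k hk
  have hk' : k < x := Finset.mem_range.1 hk
  rw [Finset.sum_comm]
  rw [Finset.sum_eq_single k]
  · have h1 : ∀ j : ℕ, f k * (z * ω ^ j) ^ k * ((starRingEnd ℂ) (f k) *
        (starRingEnd ℂ) (z * ω ^ j) ^ k) = f k * (starRingEnd ℂ) (f k) := by
      intro j
      rw [map_mul, map_pow]
      have : (z * ω ^ j) ^ k * ((starRingEnd ℂ) z * (starRingEnd ℂ) ω ^ j) ^ k = 1 := by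
        rw [← mul_pow]
        have : z * ω ^ j * ((starRingEnd ℂ) z * (starRingEnd ℂ) ω ^ j)
            = (z * (starRingEnd ℂ) z) * (ω * (starRingEnd ℂ) ω) ^ j := by
          rw [mul_pow]
          ring
        rw [this, hzc, hωc]
        simp
      calc f k * (z * ω ^ j) ^ k * ((starRingEnd ℂ) (f k) *
            ((starRingEnd ℂ) z * (starRingEnd ℂ) ω ^ j) ^ k)
          = f k * (starRingEnd ℂ) (f k) * ((z * ω ^ j) ^ k *
            ((starRingEnd ℂ) z * (starRingEnd ℂ) ω ^ j) ^ k) := by ring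
        _ = f k * (starRingEnd ℂ) (f k) := by rw [this, mul_one]
    simp_rw [h1]
    simp
  · intro l hl hlk
    have hl' : l < x := Finset.mem_range.1 hl
    set u : ℂ := ω ^ k * (starRingEnd ℂ) ω ^ l with hu
    have hu1 : u ≠ 1 := by
      intro h
      apply hlk
      have h2 : ω ^ k = ω ^ l := by
        have : ω ^ l = u * ω ^ l := by rw [h, one_mul]
        rw [this, hu]
        have : ω ^ k * (starRingEnd ℂ) ω ^ l * ω ^ l = ω ^ k * ((starRingEnd ℂ) ω * ω) ^ l := by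
          rw [mul_pow]
          ring
        rw [this, mul_comm ((starRingEnd ℂ) ω) ω, hωc]
        simp
      exact (hω.pow_inj hk' hl' h2).symm
    have hux : u ^ x = 1 := by
      rw [hu, mul_pow, ← pow_mul, ← pow_mul, mul_comm k x, mul_comm l x, pow_mul, pow_mul,
        hω.pow_eq_one, ← map_pow, hω.pow_eq_one]
      simp
    have h1 : ∀ j : ℕ, f k * (z * ω ^ j) ^ k * ((starRingEnd ℂ) (f l) *
        (starRingEnd ℂ) (z * ω ^ j) ^ l)
        = (f k * z ^ k * ((starRingEnd ℂ) (f l) * (starRingEnd ℂ) z ^ l)) * u ^ j := by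
      intro j
      rw [map_mul, map_pow]
      rw [hu]
      rw [mul_pow, mul_pow, mul_pow, ← pow_mul, ← pow_mul, ← pow_mul, ← pow_mul,
        mul_comm j k, mul_comm j l]
      ring
    simp_rw [h1]
    rw [← Finset.mul_sum, geom_zero u x hu1 hux, mul_zero]
  · intro h
    exact absurd hk h

lemma exists_root (c : ℂ) (hc : ‖c‖ = 1) (m : ℕ) (hm : 0 < m) :
    ∃ z : ℂ, ‖z‖ = 1 ∧ z ^ m = c := by
  obtain ⟨z, hz⟩ := IsAlgClosed.exists_pow_nat_eq c hm
  refine ⟨z, ?_, hz⟩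
  have h1 : ‖z‖ ^ m = 1 := by rw [← norm_pow, hz, hc]
  exact (pow_eq_one_iff_of_nonneg (norm_nonneg z) hm.ne').1 h1

/-- A polynomial of length `a ≥ 2` with unimodular coefficients has squared modulus at least
`a + 2` somewhere on the unit circle. -/
lemma exists_large (a : ℕ) (ha : 2 ≤ a) (g : ℕ → ℂ) (hg : ∀ k, ‖g k‖ = 1) :
    ∃ w : ℂ, ‖w‖ = 1 ∧ (a : ℝ) + 2 ≤ ‖cpoly a g w‖ ^ 2 := by
  obtain ⟨m, rfl⟩ : ∃ m, a = m + 1 := ⟨a - 1, by omega⟩
  have hm : 0 < m := by omega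
  set c : ℂ := g 0 * (starRingEnd ℂ) (g m) with hc
  have hgm : g m * (starRingEnd ℂ) (g m) = 1 := by
    rw [Complex.mul_conj']
    simp [hg m]
  have hcn : ‖c‖ = 1 := by
    rw [hc, norm_mul, hg 0, RCLike.norm_conj, hg m, mul_one]
  obtain ⟨z₀, hz₀, hz₀m⟩ := exists_root c hcn m hm
  have hζ : IsPrimitiveRoot (Complex.exp (2 * Real.pi * Complex.I / m)) m :=
    Complex.isPrimitiveRoot_exp m hm.ne'
  set ζ : ℂ := Complex.exp (2 * Real.pi * Complex.I / m) with hζdef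
  set g' : ℕ → ℂ := fun k => if k = 0 then 2 * g 0 else g k with hg'
  have hval : ∀ j : ℕ, cpoly (m + 1) g (z₀ * ζ ^ j) = cpoly m g' (z₀ * ζ ^ j) := by
    intro j
    have hw : (z₀ * ζ ^ j) ^ m = c := by
      rw [mul_pow, hz₀m, ← pow_mul, mul_comm j m, pow_mul, hζ.pow_eq_one, one_pow, mul_one]
    unfold cpoly
    rw [Finset.sum_range_succ, hw]
    have h1 : g m * c = g 0 := by
      rw [hc]
      calc g m * (g 0 * (starRingEnd ℂ) (g m)) = g 0 * (g m * (starRingEnd ℂ) (g m)) := by ring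
        _ = g 0 := by rw [hgm, mul_one]
    rw [h1]
    have h2 : ∀ k ∈ range m, g' k * (z₀ * ζ ^ j) ^ k
        = g k * (z₀ * ζ ^ j) ^ k + (if k = 0 then g 0 else 0) := by
      intro k _
      rw [hg']
      by_cases hk : k = 0
      · subst hk
        simp
        ring
      · simp [hk]
    rw [Finset.sum_congr rfl h2, Finset.sum_add_distrib, Finset.sum_ite_eq']
    simp [hm]
  have hsum : ∑ j ∈ range m, ‖cpoly (m + 1) g (z₀ * ζ ^ j)‖ ^ 2 = m * ((m : ℝ) + 3) := by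
    simp_rw [hval]
    rw [parseval_roots m hm g' z₀ ζ hz₀ hζ]
    congr 1
    have h3 : ∀ k ∈ range m, ‖g' k‖ ^ 2 = 1 + (if k = 0 then (3 : ℝ) else 0) := by
      intro k _
      rw [hg']
      by_cases hk : k = 0
      · subst hk
        simp [hg 0]
        norm_num
      · simp [hk, hg k]
    rw [Finset.sum_congr rfl h3, Finset.sum_add_distrib, Finset.sum_ite_eq']
    simp [hm]
  have hne : (range m).Nonempty := by
    rw [Finset.nonempty_range_iff]
    exact hm.ne'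
  have hle : ∑ j ∈ range m, ((m : ℝ) + 3) ≤ ∑ j ∈ range m, ‖cpoly (m + 1) g (z₀ * ζ ^ j)‖ ^ 2 := by
    rw [hsum, Finset.sum_const, Finset.card_range, nsmul_eq_mul]
  obtain ⟨j, _, hj⟩ := Finset.exists_le_of_sum_le hne hle
  refine ⟨z₀ * ζ ^ j, ?_, ?_⟩
  · rw [norm_mul, norm_pow, hz₀, hζ.norm'_eq_one hm.ne']
    simp
  · push_cast
    linarith


/-- If a polynomial `F` of length `x` with unimodular coefficients times `G (z ^ x)` has squared
modulus between `lo * x` and `hi * x` on the unit circle, then `G` has squared modulus between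
`lo` and `hi` on the unit circle. -/
lemma flat_outer (x : ℕ) (hx : 0 < x) (f : ℕ → ℂ) (hf : ∀ k, ‖f k‖ = 1) (G : ℂ → ℂ)
    (lo hi : ℝ)
    (h : ∀ z : ℂ, ‖z‖ = 1 → lo * x < ‖cpoly x f z‖ ^ 2 * ‖G (z ^ x)‖ ^ 2 ∧
      ‖cpoly x f z‖ ^ 2 * ‖G (z ^ x)‖ ^ 2 < hi * x) :
    ∀ w : ℂ, ‖w‖ = 1 → lo < ‖G w‖ ^ 2 ∧ ‖G w‖ ^ 2 < hi := by
  intro w hw
  obtain ⟨z, hz, hzw⟩ := exists_root w hw x hx
  have hω : IsPrimitiveRoot (Complex.exp (2 * Real.pi * Complex.I / x)) x :=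
    Complex.isPrimitiveRoot_exp x hx.ne'
  set ω : ℂ := Complex.exp (2 * Real.pi * Complex.I / x) with hωdef
  have hωn : ‖ω‖ = 1 := hω.norm'_eq_one hx.ne'
  have hpow : ∀ j : ℕ, (z * ω ^ j) ^ x = w := by
    intro j
    rw [mul_pow, hzw, ← pow_mul, mul_comm j x, pow_mul, hω.pow_eq_one, one_pow, mul_one]
  have hnorm : ∀ j : ℕ, ‖z * ω ^ j‖ = 1 := by
    intro j
    rw [norm_mul, norm_pow, hz, hωn]
    simp
  have hsum : ∑ j ∈ range x, ‖cpoly x f (z * ω ^ j)‖ ^ 2 * ‖G ((z * ω ^ j) ^ x)‖ ^ 2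
      = (x : ℝ) * x * ‖G w‖ ^ 2 := by
    simp_rw [hpow]
    rw [← Finset.sum_mul, parseval_roots x hx f z ω hz hω]
    simp [hf]
  have hne : (range x).Nonempty := by
    rw [Finset.nonempty_range_iff]
    exact hx.ne'
  have hxpos : (0 : ℝ) < x := Nat.cast_pos.2 hx
  constructor
  · have h1 : ∑ j ∈ range x, lo * (x : ℝ)
        < ∑ j ∈ range x, ‖cpoly x f (z * ω ^ j)‖ ^ 2 * ‖G ((z * ω ^ j) ^ x)‖ ^ 2 :=
      Finset.sum_lt_sum_of_nonempty hne (fun j _ => (h _ (hnorm j)).1)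
    rw [hsum, Finset.sum_const, Finset.card_range, nsmul_eq_mul] at h1
    have h2 : (x : ℝ) * x * lo < (x : ℝ) * x * ‖G w‖ ^ 2 := by linarith
    exact lt_of_mul_lt_mul_left h2 (by positivity)
  · have h1 : ∑ j ∈ range x, ‖cpoly x f (z * ω ^ j)‖ ^ 2 * ‖G ((z * ω ^ j) ^ x)‖ ^ 2
        < ∑ j ∈ range x, hi * (x : ℝ) :=
      Finset.sum_lt_sum_of_nonempty hne (fun j _ => (h _ (hnorm j)).2)
    rw [hsum, Finset.sum_const, Finset.card_range, nsmul_eq_mul] at h1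
    have h2 : (x : ℝ) * x * ‖G w‖ ^ 2 < (x : ℝ) * x * hi := by linarith
    exact lt_of_mul_lt_mul_left h2 (by positivity)


/-- Main estimate: a Littlewood polynomial whose sign sequence is a threefold Kronecker product
with middle factor of length `a ≥ 2` deviates from flatness by at least `1 / (3 a)`. -/
theorem kron_dev (x a y : ℕ) (hx : 1 ≤ x) (ha : 2 ≤ a) (hy : 1 ≤ y) (ξ α η : ℕ → ℤ)
    (hξ : ∀ i, ξ i = 1 ∨ ξ i = -1) (hα : ∀ i, α i = 1 ∨ α i = -1)
    (_hη : ∀ i, η i = 1 ∨ η i = -1) :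
    ∃ z : ℂ, ‖z‖ = 1 ∧ 1 / (3 * (a : ℝ)) ≤
      |‖littlewood (x * a * y) (fun k => ξ (k % x) * α (k / x % a) * η (k / (x * a))) z‖
        / Real.sqrt ((x * a * y : ℕ) : ℝ) - 1| := by
  by_contra hcon
  push Not at hcon
  set fξ : ℕ → ℂ := fun k => (ξ k : ℂ) with hfξdef
  set fα : ℕ → ℂ := fun k => (α k : ℂ) with hfαdef
  set fη : ℕ → ℂ := fun k => (η k : ℂ) with hfηdef
  have hfξ : ∀ k, ‖fξ k‖ = 1 := by
    intro k
    rcases hξ k with h | h <;> simp [hfξdef, h]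
  have hfα : ∀ k, ‖fα k‖ = 1 := by
    intro k
    rcases hα k with h | h <;> simp [hfαdef, h]
  have hfact : ∀ z : ℂ,
      littlewood (x * a * y) (fun k => ξ (k % x) * α (k / x % a) * η (k / (x * a))) z
        = cpoly x fξ z * (cpoly a fα (z ^ x) * cpoly y fη ((z ^ x) ^ a)) := by
    intro z
    have h1 : littlewood (x * a * y) (fun k => ξ (k % x) * α (k / x % a) * η (k / (x * a))) z
        = cpoly (x * (a * y))
          (fun k => fξ (k % x) * (fun m => fα (m % a) * fη (m / a)) (k / x)) z := by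
      unfold littlewood cpoly
      rw [mul_assoc]
      apply Finset.sum_congr rfl
      intro k _
      simp only [hfξdef, hfαdef, hfηdef]
      rw [Nat.div_div_eq_div_mul]
      push_cast
      ring
    rw [h1, kron_two x (a * y) hx fξ (fun m => fα (m % a) * fη (m / a)) z,
      kron_two a y (by omega) fα fη (z ^ x)]
  have hapos : (0 : ℝ) < a := by
    have : 0 < a := by omega
    exact_mod_cast this
  have hypos : (0 : ℝ) < y := by
    have : 0 < y := by omega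
    exact_mod_cast this
  have hxpos : (0 : ℝ) < x := by
    have : 0 < x := by omega
    exact_mod_cast this
  set δ : ℝ := 1 / (3 * (a : ℝ)) with hδ
  have hδa : δ * a = 1 / 3 := by
    rw [hδ]
    field_simp
  have hδpos : 0 < δ := by rw [hδ]; positivity
  have hδle : δ ≤ 1 / 6 := by
    have h2 : (2 : ℝ) ≤ a := by exact_mod_cast ha
    rw [hδ, div_le_div_iff₀ (by positivity) (by norm_num)]
    linarith
  set N : ℝ := ((x * a * y : ℕ) : ℝ) with hN
  have hNeq : N = (x : ℝ) * a * y := by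
    rw [hN]
    push_cast
    ring
  have hNpos : 0 < N := by rw [hNeq]; positivity
  have hs : 0 < Real.sqrt N := Real.sqrt_pos.2 hNpos
  have hbound : ∀ z : ℂ, ‖z‖ = 1 →
      (1 - δ) ^ 2 * N <
        ‖littlewood (x * a * y) (fun k => ξ (k % x) * α (k / x % a) * η (k / (x * a))) z‖ ^ 2 ∧
      ‖littlewood (x * a * y) (fun k => ξ (k % x) * α (k / x % a) * η (k / (x * a))) z‖ ^ 2
        < (1 + δ) ^ 2 * N := by
    intro z hz
    have h := hcon z hz
    rw [abs_lt] at h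
    set p : ℝ :=
      ‖littlewood (x * a * y) (fun k => ξ (k % x) * α (k / x % a) * η (k / (x * a))) z‖ with hp
    have h1 : (1 - δ) * Real.sqrt N < p := by
      have h3 := h.1
      have h4 : 1 - δ < p / Real.sqrt N := by linarith
      rw [lt_div_iff₀ hs] at h4
      exact h4
    have h2 : p < (1 + δ) * Real.sqrt N := by
      have h3 := h.2
      have h4 : p / Real.sqrt N < 1 + δ := by linarith
      rw [div_lt_iff₀ hs] at h4
      exact h4
    have hδ1 : 0 < 1 - δ := by linarith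
    have hp0 : 0 ≤ p := norm_nonneg _
    constructor
    · calc (1 - δ) ^ 2 * N = ((1 - δ) * Real.sqrt N) ^ 2 := by
            rw [mul_pow, Real.sq_sqrt hNpos.le]
        _ < p ^ 2 := pow_lt_pow_left₀ h1 (by positivity) (by norm_num)
    · calc p ^ 2 < ((1 + δ) * Real.sqrt N) ^ 2 := pow_lt_pow_left₀ h2 hp0 (by norm_num)
        _ = (1 + δ) ^ 2 * N := by rw [mul_pow, Real.sq_sqrt hNpos.le]
  -- the outer part is flat
  have hQ : ∀ w : ℂ, ‖w‖ = 1 →
      (1 - δ) ^ 2 * ((a : ℝ) * y) < ‖cpoly a fα w * cpoly y fη (w ^ a)‖ ^ 2 ∧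
      ‖cpoly a fα w * cpoly y fη (w ^ a)‖ ^ 2 < (1 + δ) ^ 2 * ((a : ℝ) * y) := by
    apply flat_outer x hx fξ hfξ (fun w => cpoly a fα w * cpoly y fη (w ^ a))
    intro z hz
    have h := hbound z hz
    rw [hfact z, norm_mul, mul_pow, hNeq] at h
    constructor
    · have := h.1
      calc (1 - δ) ^ 2 * ((a : ℝ) * y) * x = (1 - δ) ^ 2 * ((x : ℝ) * a * y) := by ring
        _ < _ := this
    · have := h.2
      calc _ < (1 + δ) ^ 2 * ((x : ℝ) * a * y) := this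
        _ = (1 + δ) ^ 2 * ((a : ℝ) * y) * x := by ring
  have hY : ∀ v : ℂ, ‖v‖ = 1 →
      (1 - δ) ^ 2 * (y : ℝ) < ‖cpoly y fη v‖ ^ 2 ∧ ‖cpoly y fη v‖ ^ 2 < (1 + δ) ^ 2 * (y : ℝ) := by
    apply flat_outer a (by omega) fα hfα (cpoly y fη)
    intro w hw
    have h := hQ w hw
    rw [norm_mul, mul_pow] at h
    constructor
    · have := h.1
      calc (1 - δ) ^ 2 * (y : ℝ) * a = (1 - δ) ^ 2 * ((a : ℝ) * y) := by ring
        _ < _ := this
    · have := h.2
      calc _ < (1 + δ) ^ 2 * ((a : ℝ) * y) := this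
        _ = (1 + δ) ^ 2 * (y : ℝ) * a := by ring
  obtain ⟨w₀, hw₀, hlarge⟩ := exists_large a ha fα hfα
  have h1 := (hQ w₀ hw₀).2
  rw [norm_mul, mul_pow] at h1
  have h2 := (hY (w₀ ^ a) (by rw [norm_pow, hw₀, one_pow])).1
  have h3 : ((a : ℝ) + 2) * ((1 - δ) ^ 2 * (y : ℝ))
      < ‖cpoly a fα w₀‖ ^ 2 * ‖cpoly y fη (w₀ ^ a)‖ ^ 2 := by
    have h4 : 0 < (1 - δ) ^ 2 * (y : ℝ) := by
      have : 0 < 1 - δ := by linarith
      positivity
    calc ((a : ℝ) + 2) * ((1 - δ) ^ 2 * (y : ℝ))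
        < ((a : ℝ) + 2) * ‖cpoly y fη (w₀ ^ a)‖ ^ 2 := by
          apply mul_lt_mul_of_pos_left h2
          positivity
      _ ≤ ‖cpoly a fα w₀‖ ^ 2 * ‖cpoly y fη (w₀ ^ a)‖ ^ 2 := by
          apply mul_le_mul_of_nonneg_right hlarge
          positivity
  have h5 : ((a : ℝ) + 2) * (1 - δ) ^ 2 * y < (1 + δ) ^ 2 * a * y := by
    calc ((a : ℝ) + 2) * (1 - δ) ^ 2 * y = ((a : ℝ) + 2) * ((1 - δ) ^ 2 * (y : ℝ)) := by ring
      _ < ‖cpoly a fα w₀‖ ^ 2 * ‖cpoly y fη (w₀ ^ a)‖ ^ 2 := h3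
      _ < (1 + δ) ^ 2 * ((a : ℝ) * y) := h1
      _ = (1 + δ) ^ 2 * a * y := by ring
  have h6 : ((a : ℝ) + 2) * (1 - δ) ^ 2 < (1 + δ) ^ 2 * a := lt_of_mul_lt_mul_right h5 hypos.le
  -- but `(a + 2) (1 - δ)² - a (1 + δ)² = 2/3 - 4 δ + 2 δ² > 0`
  have h7 : ((a : ℝ) + 2) * (1 - δ) ^ 2 - (1 + δ) ^ 2 * a = 2 - 4 * (δ * a) - 4 * δ + 2 * δ ^ 2 := by
    ring
  rw [hδa] at h7
  nlinarith

end Vale.Agent.Lib.P110
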