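import Vale.Agent.Lib.P110.Kron

namespace Vale.Agent.Lib.P110

open Finset

/-! # Flatness is multiplicative under Kronecker products (skeleton) -/

-- ===== SECTION OUTERLE =====
/-- Non-strict version of `flat_outer`. -/
lemma flat_outer_le (x : ℕ) (hx : 0 < x) (f : ℕ → ℂ) (hf : ∀ k, ‖f k‖ = 1) (G : ℂ → ℂ)
    (lo hi : ℝ)
    (h : ∀ z : ℂ, ‖z‖ = 1 → lo * x ≤ ‖cpoly x f z‖ ^ 2 * ‖G (z ^ x)‖ ^ 2 ∧
      ‖cpoly x f z‖ ^ 2 * ‖G (z ^ x)‖ ^ 2 ≤ hi * x) :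
    ∀ w : ℂ, ‖w‖ = 1 → lo ≤ ‖G w‖ ^ 2 ∧ ‖G w‖ ^ 2 ≤ hi := by
  intro w hw
  obtain ⟨z, hz, hzw⟩ := exists_root w hw x hx
  have hω : IsPrimitiveRoot (Complex.exp (2 * Real.pi * Complex.I / x)) x :=
    Complex.isPrimitiveRoot_exp x hx.ne'
  set ω : ℂ := Complex.exp (2 * Real.pi * Complex.I / x) with hωdef
  have hωn : ‖ω‖ = 1 := hω.norm'_eq_one hx.ne'
  have hpow : ∀ j : ℕ, (z * ω ^ j) ^ x = w := by
    intro j
    rw [mul_pow, hzw, ← pow_mul, mul_comm j x, pow_mul, hω.pow_eq_one, one_pow, mul_one]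
  have hnorm : ∀ j : ℕ, ‖z * ω ^ j‖ = 1 := by
    intro j
    rw [norm_mul, norm_pow, hz, hωn]
    simp
  have hsum : ∑ j ∈ range x, ‖cpoly x f (z * ω ^ j)‖ ^ 2 * ‖G ((z * ω ^ j) ^ x)‖ ^ 2
      = (x : ℝ) * x * ‖G w‖ ^ 2 := by
    simp_rw [hpow]
    rw [← Finset.sum_mul, parseval_roots x hx f z ω hz hω]
    simp [hf]
  have hxpos : (0 : ℝ) < x := Nat.cast_pos.2 hx
  constructor
  · have h1 : ∑ j ∈ range x, lo * (x : ℝ)
        ≤ ∑ j ∈ range x, ‖cpoly x f (z * ω ^ j)‖ ^ 2 * ‖G ((z * ω ^ j) ^ x)‖ ^ 2 :=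
      Finset.sum_le_sum (fun j _ => (h _ (hnorm j)).1)
    rw [hsum, Finset.sum_const, Finset.card_range, nsmul_eq_mul] at h1
    have h2 : (x : ℝ) * x * lo ≤ (x : ℝ) * x * ‖G w‖ ^ 2 := by linarith
    exact le_of_mul_le_mul_left h2 (by positivity)
  · have h1 : ∑ j ∈ range x, ‖cpoly x f (z * ω ^ j)‖ ^ 2 * ‖G ((z * ω ^ j) ^ x)‖ ^ 2
        ≤ ∑ j ∈ range x, hi * (x : ℝ) :=
      Finset.sum_le_sum (fun j _ => (h _ (hnorm j)).2)
    rw [hsum, Finset.sum_const, Finset.card_range, nsmul_eq_mul] at h1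
    have h2 : (x : ℝ) * x * ‖G w‖ ^ 2 ≤ (x : ℝ) * x * hi := by linarith
    exact le_of_mul_le_mul_left h2 (by positivity)

-- ===== SECTION CONV =====
/-- From a relative deviation bound to bounds on the square. -/
lemma sq_bounds_of_dev (p N δ : ℝ) (hp : 0 ≤ p) (hN : 0 < N) (hδ : δ < 1)
    (h : |p / Real.sqrt N - 1| ≤ δ) :
    (1 - δ) ^ 2 * N ≤ p ^ 2 ∧ p ^ 2 ≤ (1 + δ) ^ 2 * N := by
  have hs : 0 < Real.sqrt N := Real.sqrt_pos.2 hN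
  rw [abs_le] at h
  have h1 : (1 - δ) * Real.sqrt N ≤ p := by
    have h4 : 1 - δ ≤ p / Real.sqrt N := by linarith [h.1]
    rw [le_div_iff₀ hs] at h4
    exact h4
  have h2 : p ≤ (1 + δ) * Real.sqrt N := by
    have h4 : p / Real.sqrt N ≤ 1 + δ := by linarith [h.2]
    rw [div_le_iff₀ hs] at h4
    exact h4
  have hδ1 : 0 < 1 - δ := by linarith
  constructor
  · calc (1 - δ) ^ 2 * N = ((1 - δ) * Real.sqrt N) ^ 2 := by
          rw [mul_pow, Real.sq_sqrt hN.le]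
      _ ≤ p ^ 2 := pow_le_pow_left₀ (by positivity) h1 2
  · calc p ^ 2 ≤ ((1 + δ) * Real.sqrt N) ^ 2 := pow_le_pow_left₀ hp h2 2
      _ = (1 + δ) ^ 2 * N := by rw [mul_pow, Real.sq_sqrt hN.le]

/-- From bounds on the square to a relative deviation bound. -/
lemma dev_of_sq_bounds (p N lo hi : ℝ) (hp : 0 ≤ p) (hN : 0 < N) (hlo : 0 ≤ lo) (hhi : 0 ≤ hi)
    (h1 : lo ^ 2 * N ≤ p ^ 2) (h2 : p ^ 2 ≤ hi ^ 2 * N) :
    lo ≤ p / Real.sqrt N ∧ p / Real.sqrt N ≤ hi := by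
  have hs : 0 < Real.sqrt N := Real.sqrt_pos.2 hN
  constructor
  · rw [le_div_iff₀ hs]
    have h3 : (lo * Real.sqrt N) ^ 2 ≤ p ^ 2 := by
      rw [mul_pow, Real.sq_sqrt hN.le]
      exact h1
    exact (pow_le_pow_iff_left₀ (by positivity) hp (by norm_num)).1 h3
  · rw [div_le_iff₀ hs]
    have h3 : p ^ 2 ≤ (hi * Real.sqrt N) ^ 2 := by
      rw [mul_pow, Real.sq_sqrt hN.le]
      exact h2
    exact (pow_le_pow_iff_left₀ hp (by positivity) (by norm_num)).1 h3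

-- ===== SECTION FACT =====
lemma lw_fact (x y : ℕ) (hx : 0 < x) (ξ η : ℕ → ℤ) (z : ℂ) :
    littlewood (x * y) (fun k => ξ (k % x) * η (k / x)) z
      = cpoly x (fun k => (ξ k : ℂ)) z * cpoly y (fun k => (η k : ℂ)) (z ^ x) := by
  have h1 : littlewood (x * y) (fun k => ξ (k % x) * η (k / x)) z
      = cpoly (x * y) (fun k => (fun k => (ξ k : ℂ)) (k % x) * (fun k => (η k : ℂ)) (k / x)) z := by
    unfold littlewood cpoly
    apply Finset.sum_congr rfl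
    intro k _
    push_cast
    ring
  rw [h1, kron_two x y hx (fun k => (ξ k : ℂ)) (fun k => (η k : ℂ)) z]

lemma lw_eq_cpoly (N : ℕ) (ε : ℕ → ℤ) (z : ℂ) :
    littlewood N ε z = cpoly N (fun k => (ε k : ℂ)) z := rfl

-- ===== SECTION INHERIT =====
/-- Flatness of a Kronecker product is inherited by both factors. -/
theorem kron_inherit (x y : ℕ) (hx : 1 ≤ x) (hy : 1 ≤ y) (ξ η : ℕ → ℤ)
    (hξ : ∀ i, ξ i = 1 ∨ ξ i = -1) (δ : ℝ) (hδ : δ < 1)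
    (hP : ∀ z : ℂ, ‖z‖ = 1 →
      |‖littlewood (x * y) (fun k => ξ (k % x) * η (k / x)) z‖
        / Real.sqrt ((x * y : ℕ) : ℝ) - 1| ≤ δ) :
    (∀ w : ℂ, ‖w‖ = 1 → |‖littlewood y η w‖ / Real.sqrt (y : ℝ) - 1| ≤ δ) ∧
    (∀ z : ℂ, ‖z‖ = 1 → |‖littlewood x ξ z‖ / Real.sqrt (x : ℝ) - 1| ≤ 2 * δ / (1 - δ)) := by
  have hδ0 : 0 ≤ δ := le_trans (abs_nonneg _) (hP 1 norm_one)
  have hδ1 : 0 < 1 - δ := by linarith
  have hxpos : (0 : ℝ) < x := by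
    have : 0 < x := by omega
    exact_mod_cast this
  have hypos : (0 : ℝ) < y := by
    have : 0 < y := by omega
    exact_mod_cast this
  have hNeq : ((x * y : ℕ) : ℝ) = (x : ℝ) * y := by push_cast; ring
  have hNpos : (0 : ℝ) < ((x * y : ℕ) : ℝ) := by rw [hNeq]; positivity
  set fξ : ℕ → ℂ := fun k => (ξ k : ℂ) with hfξdef
  set fη : ℕ → ℂ := fun k => (η k : ℂ) with hfηdef
  have hfξ : ∀ k, ‖fξ k‖ = 1 := by
    intro k
    rcases hξ k with h | h <;> simp [hfξdef, h]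
  have hbound : ∀ z : ℂ, ‖z‖ = 1 →
      (1 - δ) ^ 2 * ((x : ℝ) * y) ≤ ‖cpoly x fξ z‖ ^ 2 * ‖cpoly y fη (z ^ x)‖ ^ 2 ∧
      ‖cpoly x fξ z‖ ^ 2 * ‖cpoly y fη (z ^ x)‖ ^ 2 ≤ (1 + δ) ^ 2 * ((x : ℝ) * y) := by
    intro z hz
    have h := sq_bounds_of_dev _ _ δ (norm_nonneg _) hNpos hδ (hP z hz)
    rw [lw_fact x y (by omega) ξ η z, norm_mul, mul_pow, hNeq] at h
    exact h
  have hQ : ∀ w : ℂ, ‖w‖ = 1 →
      (1 - δ) ^ 2 * (y : ℝ) ≤ ‖cpoly y fη w‖ ^ 2 ∧ ‖cpoly y fη w‖ ^ 2 ≤ (1 + δ) ^ 2 * (y : ℝ) := by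
    apply flat_outer_le x (by omega) fξ hfξ (cpoly y fη)
    intro z hz
    have h := hbound z hz
    constructor
    · calc (1 - δ) ^ 2 * (y : ℝ) * x = (1 - δ) ^ 2 * ((x : ℝ) * y) := by ring
        _ ≤ _ := h.1
    · calc _ ≤ (1 + δ) ^ 2 * ((x : ℝ) * y) := h.2
        _ = (1 + δ) ^ 2 * (y : ℝ) * x := by ring
  constructor
  · intro w hw
    have h := hQ w hw
    have h2 := dev_of_sq_bounds ‖cpoly y fη w‖ (y : ℝ) (1 - δ) (1 + δ) (norm_nonneg _) hypos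
      hδ1.le (by linarith) h.1 h.2
    rw [lw_eq_cpoly, abs_le]
    constructor
    · linarith [h2.1]
    · linarith [h2.2]
  · intro z hz
    have hzx : ‖z ^ x‖ = 1 := by rw [norm_pow, hz, one_pow]
    have hB := hQ (z ^ x) hzx
    have hAB := hbound z hz
    set A : ℝ := ‖cpoly x fξ z‖ ^ 2 with hA
    set B : ℝ := ‖cpoly y fη (z ^ x)‖ ^ 2 with hB'
    have hA0 : 0 ≤ A := by positivity
    have hlo : ((1 - δ) / (1 + δ)) ^ 2 * (x : ℝ) ≤ A := by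
      have h1 : (1 - δ) ^ 2 * ((x : ℝ) * y) ≤ A * ((1 + δ) ^ 2 * (y : ℝ)) :=
        le_trans hAB.1 (mul_le_mul_of_nonneg_left hB.2 hA0)
      have h2 : (1 - δ) ^ 2 * (x : ℝ) ≤ A * (1 + δ) ^ 2 := by
        have h3 : ((1 - δ) ^ 2 * (x : ℝ)) * y ≤ (A * (1 + δ) ^ 2) * y := by linarith
        exact le_of_mul_le_mul_right h3 hypos
      rw [div_pow, div_mul_eq_mul_div, div_le_iff₀ (by positivity)]
      exact h2
    have hhi : A ≤ ((1 + δ) / (1 - δ)) ^ 2 * (x : ℝ) := by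
      have h1 : A * ((1 - δ) ^ 2 * (y : ℝ)) ≤ (1 + δ) ^ 2 * ((x : ℝ) * y) :=
        le_trans (mul_le_mul_of_nonneg_left hB.1 hA0) hAB.2
      have h2 : A * (1 - δ) ^ 2 ≤ (1 + δ) ^ 2 * (x : ℝ) := by
        have h3 : (A * (1 - δ) ^ 2) * y ≤ ((1 + δ) ^ 2 * (x : ℝ)) * y := by linarith
        exact le_of_mul_le_mul_right h3 hypos
      rw [div_pow, div_mul_eq_mul_div, le_div_iff₀ (by positivity)]
      exact h2
    have h2 := dev_of_sq_bounds ‖cpoly x fξ z‖ (x : ℝ) ((1 - δ) / (1 + δ)) ((1 + δ) / (1 - δ))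
      (norm_nonneg _) hxpos (by positivity) (by positivity) hlo hhi
    have e1 : (1 + δ) / (1 - δ) = 1 + 2 * δ / (1 - δ) := by
      field_simp
      ring
    have e2 : 1 - 2 * δ / (1 - δ) ≤ (1 - δ) / (1 + δ) := by
      have e3 : (1 - δ) / (1 + δ) = 1 - 2 * δ / (1 + δ) := by
        field_simp
        ring
      rw [e3]
      have : 2 * δ / (1 + δ) ≤ 2 * δ / (1 - δ) :=
        div_le_div_of_nonneg_left (by positivity) hδ1 (by linarith)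
      linarith
    rw [lw_eq_cpoly, abs_le]
    constructor
    · linarith [h2.1]
    · linarith [h2.2]

-- ===== SECTION PROD =====
/-- Flatness of the factors gives flatness of the Kronecker product. -/
theorem kron_prod (x y : ℕ) (hx : 1 ≤ x) (ξ η : ℕ → ℤ) (δ₁ δ₂ : ℝ)
    (hX : ∀ z : ℂ, ‖z‖ = 1 → |‖littlewood x ξ z‖ / Real.sqrt (x : ℝ) - 1| ≤ δ₁)
    (hQ : ∀ w : ℂ, ‖w‖ = 1 → |‖littlewood y η w‖ / Real.sqrt (y : ℝ) - 1| ≤ δ₂) :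
    ∀ z : ℂ, ‖z‖ = 1 →
      |‖littlewood (x * y) (fun k => ξ (k % x) * η (k / x)) z‖
        / Real.sqrt ((x * y : ℕ) : ℝ) - 1| ≤ δ₁ + δ₂ + δ₁ * δ₂ := by
  intro z hz
  have hδ1 : 0 ≤ δ₁ := le_trans (abs_nonneg _) (hX 1 norm_one)
  have hδ2 : 0 ≤ δ₂ := le_trans (abs_nonneg _) (hQ 1 norm_one)
  have hzx : ‖z ^ x‖ = 1 := by rw [norm_pow, hz, one_pow]
  have h1 := hX z hz
  have h2 := hQ (z ^ x) hzx
  rw [lw_eq_cpoly] at h1 h2
  rw [lw_fact x y (by omega) ξ η z, norm_mul]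
  have hsq : Real.sqrt ((x * y : ℕ) : ℝ) = Real.sqrt (x : ℝ) * Real.sqrt (y : ℝ) := by
    push_cast
    exact Real.sqrt_mul (Nat.cast_nonneg x) _
  rw [hsq, mul_div_mul_comm]
  set u : ℝ := ‖cpoly x (fun k => (ξ k : ℂ)) z‖ / Real.sqrt (x : ℝ) with hu
  set v : ℝ := ‖cpoly y (fun k => (η k : ℂ)) (z ^ x)‖ / Real.sqrt (y : ℝ) with hv
  have hu0 : 0 ≤ u := div_nonneg (norm_nonneg _) (Real.sqrt_nonneg _)
  have hv0 : 0 ≤ v := div_nonneg (norm_nonneg _) (Real.sqrt_nonneg _)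
  rw [abs_le] at h1 h2 ⊢
  constructor
  · by_cases c1 : δ₁ ≤ 1
    · by_cases c2 : δ₂ ≤ 1
      · nlinarith [mul_nonneg (by linarith : (0 : ℝ) ≤ u - (1 - δ₁)) (by linarith : (0 : ℝ) ≤ v - (1 - δ₂)),
          mul_nonneg hδ1 hδ2, mul_nonneg (by linarith : (0 : ℝ) ≤ 1 - δ₁) hv0,
          mul_nonneg (by linarith : (0 : ℝ) ≤ 1 - δ₂) hu0,
          mul_nonneg (by linarith : (0 : ℝ) ≤ 1 - δ₁) (by linarith : (0 : ℝ) ≤ v - (1 - δ₂)),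
          mul_nonneg (by linarith : (0 : ℝ) ≤ 1 - δ₂) (by linarith : (0 : ℝ) ≤ u - (1 - δ₁))]
      · nlinarith [mul_nonneg hu0 hv0, mul_nonneg hδ1 hδ2]
    · nlinarith [mul_nonneg hu0 hv0, mul_nonneg hδ1 hδ2]
  · nlinarith [mul_nonneg (by linarith : (0 : ℝ) ≤ 1 + δ₁ - u) hv0,
      mul_nonneg (by linarith : (0 : ℝ) ≤ 1 + δ₂ - v) (by linarith : (0 : ℝ) ≤ 1 + δ₁)]

end Vale.Agent.Lib.P110
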