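import Vale.Agent.Lib.P110.Mult

namespace Vale.Agent.Lib.P110

open Finset

/-- Reindexing a sum over `range (x * m)` by residue and quotient. -/
lemma sum_range_mul_reindex (x m : ℕ) (g : ℕ → ℂ) :
    ∑ n ∈ range (x * m), g n = ∑ j ∈ range x, ∑ k ∈ range m, g (k * x + j) := by
  induction m with
  | zero => simp
  | succ m ih =>
    have h0 : x * (m + 1) = x * m + x := by ring
    rw [h0, Finset.sum_range_add, ih, ← Finset.sum_add_distrib]
    apply Finset.sum_congr rfl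
    intro j _
    rw [Finset.sum_range_succ, mul_comm m x]

/-- Polyphase decomposition of a polynomial of length `x * m`. -/
lemma polyphase_identity (x m : ℕ) (ε : ℕ → ℤ) (u : ℂ) :
    littlewood (x * m) ε u
      = cpoly x (fun j => littlewood m (fun k => ε (k * x + j)) (u ^ x)) u := by
  unfold littlewood cpoly
  rw [sum_range_mul_reindex x m (fun n => (ε n : ℂ) * u ^ n)]
  apply Finset.sum_congr rfl
  intro j _
  rw [Finset.sum_mul]
  apply Finset.sum_congr rfl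
  intro k _
  rw [pow_add, ← pow_mul, mul_comm x k]
  ring

/-- The polyphase components of a flat polynomial form an almost complementary set. -/
theorem polyphase_flat (x m : ℕ) (hx : 1 ≤ x) (hm : 1 ≤ m) (ε : ℕ → ℤ) (δ : ℝ) (hδ : δ < 1)
    (hP : ∀ z : ℂ, ‖z‖ = 1 →
      |‖littlewood (x * m) ε z‖ / Real.sqrt ((x * m : ℕ) : ℝ) - 1| ≤ δ) :
    ∀ w : ℂ, ‖w‖ = 1 →
      (1 - δ) ^ 2 * ((x * m : ℕ) : ℝ)
          ≤ ∑ j ∈ range x, ‖littlewood m (fun k => ε (k * x + j)) w‖ ^ 2 ∧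
      ∑ j ∈ range x, ‖littlewood m (fun k => ε (k * x + j)) w‖ ^ 2
          ≤ (1 + δ) ^ 2 * ((x * m : ℕ) : ℝ) := by
  intro w hw
  have hx0 : 0 < x := by omega
  have hxpos : (0 : ℝ) < x := Nat.cast_pos.2 hx0
  have hNpos : (0 : ℝ) < ((x * m : ℕ) : ℝ) := by
    have : 0 < x * m := Nat.mul_pos hx0 (by omega)
    exact_mod_cast this
  obtain ⟨z, hz, hzw⟩ := exists_root w hw x hx0
  have hω : IsPrimitiveRoot (Complex.exp (2 * Real.pi * Complex.I / x)) x :=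
    Complex.isPrimitiveRoot_exp x hx0.ne'
  set ω : ℂ := Complex.exp (2 * Real.pi * Complex.I / x) with hωdef
  have hωn : ‖ω‖ = 1 := hω.norm'_eq_one hx0.ne'
  have hpow : ∀ j : ℕ, (z * ω ^ j) ^ x = w := by
    intro j
    rw [mul_pow, hzw, ← pow_mul, mul_comm j x, pow_mul, hω.pow_eq_one, one_pow, mul_one]
  have hnorm : ∀ j : ℕ, ‖z * ω ^ j‖ = 1 := by
    intro j
    rw [norm_mul, norm_pow, hz, hωn]
    simp
  set f : ℕ → ℂ := fun j => littlewood m (fun k => ε (k * x + j)) w with hf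
  have hval : ∀ i : ℕ, littlewood (x * m) ε (z * ω ^ i) = cpoly x f (z * ω ^ i) := by
    intro i
    rw [polyphase_identity x m ε (z * ω ^ i), hpow i]
  have hsum : ∑ i ∈ range x, ‖littlewood (x * m) ε (z * ω ^ i)‖ ^ 2
      = (x : ℝ) * ∑ j ∈ range x, ‖f j‖ ^ 2 := by
    simp_rw [hval]
    exact parseval_roots x hx0 f z ω hz hω
  have hb : ∀ i : ℕ, (1 - δ) ^ 2 * ((x * m : ℕ) : ℝ) ≤ ‖littlewood (x * m) ε (z * ω ^ i)‖ ^ 2 ∧
      ‖littlewood (x * m) ε (z * ω ^ i)‖ ^ 2 ≤ (1 + δ) ^ 2 * ((x * m : ℕ) : ℝ) :=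
    fun i => sq_bounds_of_dev _ _ δ (norm_nonneg _) hNpos hδ (hP _ (hnorm i))
  constructor
  · have h1 : ∑ i ∈ range x, (1 - δ) ^ 2 * ((x * m : ℕ) : ℝ)
        ≤ ∑ i ∈ range x, ‖littlewood (x * m) ε (z * ω ^ i)‖ ^ 2 :=
      Finset.sum_le_sum (fun i _ => (hb i).1)
    rw [hsum, Finset.sum_const, Finset.card_range, nsmul_eq_mul] at h1
    exact le_of_mul_le_mul_left h1 hxpos
  · have h1 : ∑ i ∈ range x, ‖littlewood (x * m) ε (z * ω ^ i)‖ ^ 2
        ≤ ∑ i ∈ range x, (1 + δ) ^ 2 * ((x * m : ℕ) : ℝ) :=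
      Finset.sum_le_sum (fun i _ => (hb i).2)
    rw [hsum, Finset.sum_const, Finset.card_range, nsmul_eq_mul] at h1
    exact le_of_mul_le_mul_left h1 hxpos

end Vale.Agent.Lib.P110
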