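import Vale.Agent.Lib.P110.Mult

namespace Vale.Agent.Lib.P110

open Finset

/-- Strict inheritance of flatness by the outer-index factor of a Kronecker product. -/
theorem kron_inherit_lt (x y : ℕ) (hx : 1 ≤ x) (hy : 1 ≤ y) (ξ η : ℕ → ℤ)
    (hξ : ∀ i, ξ i = 1 ∨ ξ i = -1) (δ : ℝ) (hδ : δ ≤ 1)
    (hP : ∀ z : ℂ, ‖z‖ = 1 →
      |‖littlewood (x * y) (fun k => ξ (k % x) * η (k / x)) z‖
        / Real.sqrt ((x * y : ℕ) : ℝ) - 1| < δ) :
    ∀ w : ℂ, ‖w‖ = 1 → |‖littlewood y η w‖ / Real.sqrt (y : ℝ) - 1| < δ := by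
  have hδ1 : 0 ≤ 1 - δ := by linarith
  have hδpos : 0 < δ := lt_of_le_of_lt (abs_nonneg _) (hP 1 norm_one)
  have hxpos : (0 : ℝ) < x := by
    have : 0 < x := by omega
    exact_mod_cast this
  have hypos : (0 : ℝ) < y := by
    have : 0 < y := by omega
    exact_mod_cast this
  have hNeq : ((x * y : ℕ) : ℝ) = (x : ℝ) * y := by push_cast; ring
  have hNpos : (0 : ℝ) < ((x * y : ℕ) : ℝ) := by rw [hNeq]; positivity
  have hs : 0 < Real.sqrt ((x * y : ℕ) : ℝ) := Real.sqrt_pos.2 hNpos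
  have hsy : 0 < Real.sqrt (y : ℝ) := Real.sqrt_pos.2 hypos
  set fξ : ℕ → ℂ := fun k => (ξ k : ℂ) with hfξdef
  set fη : ℕ → ℂ := fun k => (η k : ℂ) with hfηdef
  have hfξ : ∀ k, ‖fξ k‖ = 1 := by
    intro k
    rcases hξ k with h | h <;> simp [hfξdef, h]
  have hbound : ∀ z : ℂ, ‖z‖ = 1 →
      (1 - δ) ^ 2 * (y : ℝ) * x < ‖cpoly x fξ z‖ ^ 2 * ‖cpoly y fη (z ^ x)‖ ^ 2 ∧
      ‖cpoly x fξ z‖ ^ 2 * ‖cpoly y fη (z ^ x)‖ ^ 2 < (1 + δ) ^ 2 * (y : ℝ) * x := by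
    intro z hz
    have h := hP z hz
    rw [abs_lt] at h
    set p : ℝ := ‖littlewood (x * y) (fun k => ξ (k % x) * η (k / x)) z‖ with hp
    have hp0 : 0 ≤ p := norm_nonneg _
    have h1 : (1 - δ) * Real.sqrt ((x * y : ℕ) : ℝ) < p := by
      have h4 : 1 - δ < p / Real.sqrt ((x * y : ℕ) : ℝ) := by linarith [h.1]
      rw [lt_div_iff₀ hs] at h4
      exact h4
    have h2 : p < (1 + δ) * Real.sqrt ((x * y : ℕ) : ℝ) := by
      have h4 : p / Real.sqrt ((x * y : ℕ) : ℝ) < 1 + δ := by linarith [h.2]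
      rw [div_lt_iff₀ hs] at h4
      exact h4
    have e : p ^ 2 = ‖cpoly x fξ z‖ ^ 2 * ‖cpoly y fη (z ^ x)‖ ^ 2 := by
      rw [hp, lw_fact x y (by omega) ξ η z, norm_mul, mul_pow]
    rw [← e]
    constructor
    · calc (1 - δ) ^ 2 * (y : ℝ) * x = ((1 - δ) * Real.sqrt ((x * y : ℕ) : ℝ)) ^ 2 := by
            rw [mul_pow, Real.sq_sqrt hNpos.le, hNeq]; ring
        _ < p ^ 2 := pow_lt_pow_left₀ h1 (by positivity) (by norm_num)
    · calc p ^ 2 < ((1 + δ) * Real.sqrt ((x * y : ℕ) : ℝ)) ^ 2 :=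
            pow_lt_pow_left₀ h2 hp0 (by norm_num)
        _ = (1 + δ) ^ 2 * (y : ℝ) * x := by
            rw [mul_pow, Real.sq_sqrt hNpos.le, hNeq]; ring
  have hQ : ∀ w : ℂ, ‖w‖ = 1 →
      (1 - δ) ^ 2 * (y : ℝ) < ‖cpoly y fη w‖ ^ 2 ∧ ‖cpoly y fη w‖ ^ 2 < (1 + δ) ^ 2 * (y : ℝ) :=
    flat_outer x (by omega) fξ hfξ (cpoly y fη) _ _ hbound
  intro w hw
  have h := hQ w hw
  set p : ℝ := ‖cpoly y fη w‖ with hp
  have hp0 : 0 ≤ p := norm_nonneg _
  rw [lw_eq_cpoly, abs_lt]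
  have h1 : ((1 - δ) * Real.sqrt (y : ℝ)) ^ 2 < p ^ 2 := by
    rw [mul_pow, Real.sq_sqrt hypos.le]
    exact h.1
  have h2 : p ^ 2 < ((1 + δ) * Real.sqrt (y : ℝ)) ^ 2 := by
    rw [mul_pow, Real.sq_sqrt hypos.le]
    exact h.2
  have h3 : (1 - δ) * Real.sqrt (y : ℝ) < p :=
    (pow_lt_pow_iff_left₀ (by positivity) hp0 (by norm_num)).1 h1
  have h4 : p < (1 + δ) * Real.sqrt (y : ℝ) :=
    (pow_lt_pow_iff_left₀ hp0 (by positivity) (by norm_num)).1 h2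
  constructor
  · have : 1 - δ < p / Real.sqrt (y : ℝ) := by
      rw [lt_div_iff₀ hsy]
      exact h3
    linarith
  · have : p / Real.sqrt (y : ℝ) < 1 + δ := by
      rw [div_lt_iff₀ hsy]
      exact h4
    linarith

/-- Every sign pattern of length `N ≥ 2` deviates from flatness by at least `1 / (3 N)`. -/
theorem short_dev (N : ℕ) (hN : 2 ≤ N) (ε : ℕ → ℤ) (hε : ∀ i, ε i = 1 ∨ ε i = -1) :
    ∃ z : ℂ, ‖z‖ = 1 ∧ 1 / (3 * (N : ℝ)) ≤
      |‖littlewood N ε z‖ / Real.sqrt (N : ℝ) - 1| := by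
  obtain ⟨z, hz, h⟩ := kron_dev 1 N 1 (le_refl 1) hN (le_refl 1) (fun _ => 1) ε (fun _ => 1)
    (fun _ => Or.inl rfl) hε (fun _ => Or.inl rfl)
  refine ⟨z, hz, ?_⟩
  have e : littlewood (1 * N * 1) (fun k => (fun _ => (1 : ℤ)) (k % 1) * ε (k / 1 % N) *
      (fun _ => (1 : ℤ)) (k / (1 * N))) z = littlewood N ε z := by
    unfold littlewood
    rw [one_mul, mul_one]
    apply Finset.sum_congr rfl
    intro k hk
    have hk' : k < N := Finset.mem_range.1 hk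
    simp [Nat.mod_eq_of_lt hk']
  have e2 : ((1 * N * 1 : ℕ) : ℝ) = (N : ℝ) := by simp
  rw [e, e2] at h
  exact h

/-- Reduction to Kronecker-primitive sign patterns. -/
theorem prim_reduction (c : ℝ) (N₀ : ℕ) (hN₀ : 2 ≤ N₀)
    (hprim : ∀ (N : ℕ) (ε : ℕ → ℤ), N₀ ≤ N → (∀ i, ε i = 1 ∨ ε i = -1) →
      (¬ ∃ (x y : ℕ) (ξ η : ℕ → ℤ), 2 ≤ x ∧ 2 ≤ y ∧ N = x * y ∧
        (∀ i, ξ i = 1 ∨ ξ i = -1) ∧ (∀ i, η i = 1 ∨ η i = -1) ∧
        ∀ k, k < N → ε k = ξ (k % x) * η (k / x)) →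
      ∃ z : ℂ, ‖z‖ = 1 ∧ c ≤ |‖littlewood N ε z‖ / Real.sqrt (N : ℝ) - 1|) :
    ∀ (N : ℕ) (ε : ℕ → ℤ), 2 ≤ N → (∀ i, ε i = 1 ∨ ε i = -1) →
      ∃ z : ℂ, ‖z‖ = 1 ∧
        min c (1 / (3 * (N₀ : ℝ))) ≤ |‖littlewood N ε z‖ / Real.sqrt (N : ℝ) - 1| := by
  have hN₀r : (2 : ℝ) ≤ (N₀ : ℝ) := by exact_mod_cast hN₀
  have hm1 : min c (1 / (3 * (N₀ : ℝ))) ≤ 1 := by
    apply le_trans (min_le_right _ _)
    rw [div_le_one (by positivity)]
    linarith
  intro N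
  induction N using Nat.strong_induction_on with
  | _ N ih =>
    intro ε hN hε
    by_cases hlt : N < N₀
    · obtain ⟨z, hz, h⟩ := short_dev N hN ε hε
      refine ⟨z, hz, le_trans (min_le_right _ _) (le_trans ?_ h)⟩
      have hNr : (N : ℝ) ≤ (N₀ : ℝ) := by exact_mod_cast hlt.le
      have hNpos : (0 : ℝ) < (N : ℝ) := by
        have : 0 < N := by omega
        exact_mod_cast this
      apply div_le_div_of_nonneg_left (by norm_num) (by positivity)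
      linarith
    · push Not at hlt
      by_cases hdec : ∃ (x y : ℕ) (ξ η : ℕ → ℤ), 2 ≤ x ∧ 2 ≤ y ∧ N = x * y ∧
          (∀ i, ξ i = 1 ∨ ξ i = -1) ∧ (∀ i, η i = 1 ∨ η i = -1) ∧
          ∀ k, k < N → ε k = ξ (k % x) * η (k / x)
      · obtain ⟨x, y, ξ, η, hx, hy, hNxy, hξ, hη, hk⟩ := hdec
        have hyN : y < N := by
          rw [hNxy]
          nlinarith
        obtain ⟨w, hw, hwdev⟩ := ih y hyN η hy hη
        by_contra hcon
        push Not at hcon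
        have e : ∀ z : ℂ, littlewood N ε z
            = littlewood (x * y) (fun k => ξ (k % x) * η (k / x)) z := by
          intro z
          unfold littlewood
          rw [hNxy]
          apply Finset.sum_congr rfl
          intro k hk'
          have hk'' : k < N := by
            rw [hNxy]
            exact Finset.mem_range.1 hk'
          rw [hk k hk'']
        have hP : ∀ z : ℂ, ‖z‖ = 1 →
            |‖littlewood (x * y) (fun k => ξ (k % x) * η (k / x)) z‖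
              / Real.sqrt ((x * y : ℕ) : ℝ) - 1| < min c (1 / (3 * (N₀ : ℝ))) := by
          intro z hz
          have h := hcon z hz
          rw [e z, hNxy] at h
          exact h
        have hQ := kron_inherit_lt x y (by omega) (by omega) ξ η hξ _ hm1 hP w hw
        linarith
      · obtain ⟨z, hz, h⟩ := hprim N ε hlt hε hdec
        exact ⟨z, hz, le_trans (min_le_left _ _) h⟩

end Vale.Agent.Lib.P110
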